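import Mathlib

namespace Vale.Agent.Lib.P160.H73

/-- the real-number core with thirtieth powers: if the ratio is at most one, the key product is
at most the thirtieth power of one eighth, thirty times the second exponent is at most the
first, and twenty-eight times the first is at most thirty times the third, then the product is
at most the stated power of one eighth -/
theorem rv_core1 (a b ρ : ℝ) (n m e : ℕ) (ha : 0 ≤ a) (hb : 1 ≤ b) (hρ : 0 < ρ) (hρ1 : ρ ≤ 1)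
    (hm : 30 * m ≤ n) (he : 28 * n ≤ 30 * e)
    (hkey : a ^ 30 * b * ρ ^ 28 ≤ (1 / 8) ^ 30) :
    a ^ n * b ^ m * ρ ^ e ≤ (1 / 8) ^ n := by
  have hb0 : 0 ≤ b := by linarith
  have hA : 0 ≤ a ^ n * b ^ m * ρ ^ e := by positivity
  have hB : 0 ≤ ((1 : ℝ) / 8) ^ n := by positivity
  rw [← pow_le_pow_iff_left₀ hA hB (by norm_num : (30 : ℕ) ≠ 0)]
  have e1 : (a ^ n * b ^ m * ρ ^ e) ^ 30 = (a ^ 30) ^ n * b ^ (30 * m) * ρ ^ (30 * e) := by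
    ring
  have e2 : b ^ (30 * m) ≤ b ^ n := pow_le_pow_right₀ hb hm
  have e3 : ρ ^ (30 * e) ≤ ρ ^ (28 * n) := pow_le_pow_of_le_one hρ.le hρ1 he
  have e4 : (a ^ 30) ^ n * b ^ n * ρ ^ (28 * n) = (a ^ 30 * b * ρ ^ 28) ^ n := by
    rw [mul_pow, mul_pow, ← pow_mul ρ 28 n]
  have e5 : 0 ≤ a ^ 30 * b * ρ ^ 28 := by positivity
  calc (a ^ n * b ^ m * ρ ^ e) ^ 30 = (a ^ 30) ^ n * b ^ (30 * m) * ρ ^ (30 * e) := e1
    _ ≤ (a ^ 30) ^ n * b ^ n * ρ ^ (28 * n) :=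
        mul_le_mul (mul_le_mul_of_nonneg_left e2 (by positivity)) e3 (by positivity)
          (by positivity)
    _ = (a ^ 30 * b * ρ ^ 28) ^ n := e4
    _ ≤ (((1 : ℝ) / 8) ^ 30) ^ n := pow_le_pow_left₀ e5 hkey n
    _ = (((1 : ℝ) / 8) ^ n) ^ 30 := by rw [← pow_mul, ← pow_mul, mul_comm]

/-- if the integer fourth root of a positive `n` is at most `D`, then `D` is positive and
`n < 16 D^4` -/
theorem nat_fact (n D : ℕ) (hn : 1 ≤ n) (hD : Nat.sqrt (Nat.sqrt n) ≤ D) :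
    n < 16 * D ^ 4 ∧ 1 ≤ D := by
  have h1 : n < (Nat.sqrt n + 1) * (Nat.sqrt n + 1) := Nat.lt_succ_sqrt n
  have h2 : Nat.sqrt n < (Nat.sqrt (Nat.sqrt n) + 1) * (Nat.sqrt (Nat.sqrt n) + 1) :=
    Nat.lt_succ_sqrt (Nat.sqrt n)
  have h3 : 0 < Nat.sqrt n := Nat.sqrt_pos.2 hn
  have h4 : 0 < Nat.sqrt (Nat.sqrt n) := Nat.sqrt_pos.2 h3
  obtain ⟨t, ht⟩ : ∃ t : ℕ, t = Nat.sqrt n := ⟨_, rfl⟩
  rw [← ht] at h1 h2 h3 h4 hD
  obtain ⟨s, hs⟩ : ∃ s : ℕ, s = Nat.sqrt t := ⟨_, rfl⟩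
  rw [← hs] at h2 h4 hD
  have h5 : s + 1 ≤ 2 * D := by omega
  have h6 : (s + 1) * (s + 1) ≤ (2 * D) * (2 * D) := Nat.mul_le_mul h5 h5
  have h7 : t + 1 ≤ (2 * D) * (2 * D) := by omega
  have h8 : (t + 1) * (t + 1) ≤ ((2 * D) * (2 * D)) * ((2 * D) * (2 * D)) :=
    Nat.mul_le_mul h7 h7
  have h9 : ((2 * D) * (2 * D)) * ((2 * D) * (2 * D)) = 16 * D ^ 4 := by ring
  refine ⟨?_, by omega⟩
  rw [← h9]
  exact lt_of_lt_of_le h1 h8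

/-- the numeric lemma N1 for the linear rare-values theorem -/
theorem rv_num1 (C : ℝ) (hC : 0 < C) : ∃ N₀ : ℕ, ∀ m n D : ℕ, N₀ ≤ n → 30 * m ≤ n →
    Nat.sqrt (Nat.sqrt n) ≤ D → D ≤ m →
    C / ((D : ℝ) * Real.sqrt (D : ℝ)) ≤ 1 ∧
    (2 : ℝ) ^ n * ((2 * D + 1 : ℕ) : ℝ) ^ n * ((2 * D + 1 + m : ℕ) : ℝ) ^ m *
      (C / ((D : ℝ) * Real.sqrt (D : ℝ))) ^ (n - m - D) ≤ (1 / 8) ^ n := by
  obtain ⟨K, hK⟩ : ∃ K : ℝ, K = 4096 * 48 ^ 30 * C ^ 28 + 4096 * C ^ 8 := ⟨_, rfl⟩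
  have hC28 : 0 < C ^ 28 := pow_pos hC 28
  have hC8 : 0 < C ^ 8 := pow_pos hC 8
  have hK0 : 0 ≤ K := by
    rw [hK]
    positivity
  refine ⟨⌈K⌉₊ + 1, ?_⟩
  intro m n D hn hm hD hDm
  have hn1 : 1 ≤ n := by omega
  obtain ⟨hnD, hD1⟩ := nat_fact n D hn1 hD
  have c1 : ((2 * D + 1 : ℕ) : ℝ) = 2 * (D : ℝ) + 1 := by push_cast; ring
  have c2 : ((2 * D + 1 + m : ℕ) : ℝ) = 2 * (D : ℝ) + 1 + (m : ℝ) := by push_cast; ring
  rw [c1, c2]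
  have he : 28 * n ≤ 30 * (n - m - D) := by omega
  have hNK : K + 1 ≤ (n : ℝ) := by
    have h1 := Nat.le_ceil K
    have h2 : ((⌈K⌉₊ + 1 : ℕ) : ℝ) ≤ (n : ℝ) := by exact_mod_cast hn
    push_cast at h2
    linarith
  have hd1' : (1 : ℝ) ≤ (D : ℝ) := by exact_mod_cast hD1
  have hNd' : (n : ℝ) < 16 * (D : ℝ) ^ 4 := by exact_mod_cast hnD
  have hdM' : (D : ℝ) ≤ (m : ℝ) := by exact_mod_cast hDm
  have hMN' : 30 * (m : ℝ) ≤ (n : ℝ) := by exact_mod_cast hm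
  have hN1' : (1 : ℝ) ≤ (n : ℝ) := by exact_mod_cast hn1
  obtain ⟨d, hd⟩ : ∃ d : ℝ, d = (D : ℝ) := ⟨_, rfl⟩
  obtain ⟨N, hN⟩ : ∃ N : ℝ, N = (n : ℝ) := ⟨_, rfl⟩
  obtain ⟨M, hM⟩ : ∃ M : ℝ, M = (m : ℝ) := ⟨_, rfl⟩
  rw [← hd] at hd1' hNd' hdM' ⊢
  rw [← hN] at hNK hNd' hMN' hN1'
  rw [← hM] at hdM' hMN' ⊢
  have hdpos : 0 < d := by linarith
  obtain ⟨s, hs⟩ : ∃ s : ℝ, s = Real.sqrt d := ⟨_, rfl⟩
  rw [← hs]
  have hs2 : s ^ 2 = d := by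
    rw [hs]
    exact Real.sq_sqrt hdpos.le
  have hspos : 0 < s := by
    rw [hs]
    exact Real.sqrt_pos.2 hdpos
  have hden : 0 < d * s := by positivity
  have hρpos : 0 < C / (d * s) := by positivity
  have hK1 : 4096 * 48 ^ 30 * C ^ 28 ≤ N := by
    rw [hK] at hNK
    linarith
  have hK2 : 4096 * C ^ 8 ≤ N := by
    rw [hK] at hNK
    linarith
  have hd4 : N / 16 ≤ d ^ 4 := by linarith
  have hN0 : 0 ≤ N / 16 := by linarith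
  have hd12 : N ^ 3 / 4096 ≤ d ^ 12 := by
    calc N ^ 3 / 4096 = (N / 16) ^ 3 := by ring
      _ ≤ (d ^ 4) ^ 3 := pow_le_pow_left₀ hN0 hd4 3
      _ = d ^ 12 := by ring
  have hNN : N ≤ N ^ 2 := le_self_pow₀ hN1' (by norm_num)
  have hN3 : N ≤ N ^ 3 := le_self_pow₀ hN1' (by norm_num)
  have hds8 : (d * s) ^ 8 = d ^ 12 := by
    calc (d * s) ^ 8 = d ^ 8 * (s ^ 2) ^ 4 := by ring
      _ = d ^ 8 * d ^ 4 := by rw [hs2]
      _ = d ^ 12 := by ring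
  have hds28 : (d * s) ^ 28 = d ^ 42 := by
    calc (d * s) ^ 28 = d ^ 28 * (s ^ 2) ^ 14 := by ring
      _ = d ^ 28 * d ^ 14 := by rw [hs2]
      _ = d ^ 42 := by ring
  have hCds : C ≤ d * s := by
    rw [← pow_le_pow_iff_left₀ hC.le hden.le (by norm_num : (8 : ℕ) ≠ 0), hds8]
    linarith
  have hρ1 : C / (d * s) ≤ 1 := by
    rw [div_le_one hden]
    exact hCds
  refine ⟨hρ1, ?_⟩
  have h48 : 48 ^ 30 * C ^ 28 * N ≤ d ^ 12 := by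
    have h1 : 4096 * 48 ^ 30 * C ^ 28 * N ≤ N ^ 2 * N :=
      mul_le_mul_of_nonneg_right (hK1.trans hNN) (by linarith)
    have h2 : N ^ 2 * N = N ^ 3 := by ring
    linarith
  have ha : 2 * (2 * d + 1) ≤ 6 * d := by linarith
  have ha0 : 0 ≤ 2 * (2 * d + 1) := by linarith
  have ha30 : (2 * (2 * d + 1)) ^ 30 ≤ (6 * d) ^ 30 := pow_le_pow_left₀ ha0 ha 30
  have hb : 2 * d + 1 + M ≤ N := by linarith
  have hb1 : 1 ≤ 2 * d + 1 + M := by linarith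
  have hρ28 : (C / (d * s)) ^ 28 = C ^ 28 / d ^ 42 := by rw [div_pow, hds28]
  have hd42 : 0 < d ^ 42 := pow_pos hdpos 42
  have hkey : (2 * (2 * d + 1)) ^ 30 * (2 * d + 1 + M) * (C / (d * s)) ^ 28 ≤ (1 / 8) ^ 30 := by
    rw [hρ28]
    have h1 : (2 * (2 * d + 1)) ^ 30 * (2 * d + 1 + M) ≤ (6 * d) ^ 30 * N :=
      mul_le_mul ha30 hb (by linarith) (by positivity)
    have h2 : (6 * d) ^ 30 * N * C ^ 28 ≤ (1 / 8) ^ 30 * d ^ 42 := by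
      calc (6 * d) ^ 30 * N * C ^ 28 = (1 / 8) ^ 30 * d ^ 30 * (48 ^ 30 * C ^ 28 * N) := by ring
        _ ≤ (1 / 8) ^ 30 * d ^ 30 * d ^ 12 := mul_le_mul_of_nonneg_left h48 (by positivity)
        _ = (1 / 8) ^ 30 * d ^ 42 := by ring
    rw [← mul_div_assoc, div_le_iff₀ hd42]
    exact le_trans (mul_le_mul_of_nonneg_right h1 hC28.le) h2
  rw [← mul_pow]
  exact rv_core1 (2 * (2 * d + 1)) (2 * d + 1 + M) (C / (d * s)) n m (n - m - D) ha0 hb1 hρpos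
    hρ1 hm he hkey

end Vale.Agent.Lib.P160.H73
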